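/-
Helper35 — S0175 project, Part II, package SH-a (shape calculus, first half):
`wMin_pos`, `wMin_lt`, `shH_wMin`, `shH_pos`, `shL12_ge_one`, `shL23_ge_one`, `shG_nonneg`,
`shG_le_three`, `shape_contDiffAt`, `shF_strictAnti`, `shF_deriv_neg`.
-/
import Mathlib
import Crest.Agent.Helper32.GeomDefs

set_option autoImplicit false
set_option linter.unusedVariables false
open Set
open scoped ContDiff
open Crest.Agent.Helper32

namespace Crest.Agent.Helper35

/-! ### basic facts -/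

theorem two_rpow_pos (s : ℝ) : (0:ℝ) < (2:ℝ) ^ (s + 2) := Real.rpow_pos_of_pos (by norm_num) _

theorem wMin_sq (s : ℝ) : wMin s ^ 2 = 1 / ((2:ℝ) ^ (s + 2) + 2) := by
  have := two_rpow_pos s
  unfold wMin
  rw [Real.sq_sqrt (by positivity)]

theorem wMin_pos (s : ℝ) (hs : 0 < s) : 0 < wMin s := by
  have := two_rpow_pos s
  unfold wMin
  exact Real.sqrt_pos.mpr (by positivity)

theorem wMin_lt (s : ℝ) (hs : 0 < s) : 2 * (wMin s) ^ 2 < 1 := by
  have h := two_rpow_pos s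
  rw [wMin_sq, mul_one_div, div_lt_one (by positivity)]
  linarith

theorem shP_pos (w : ℝ) (hw' : 2 * w ^ 2 < 1) : 0 < shP w := by unfold shP; linarith

theorem shP_le_one (w : ℝ) : shP w ≤ 1 := by unfold shP; nlinarith [sq_nonneg w]

theorem lt_one_of (w : ℝ) (hw : 0 < w) (hw' : 2 * w ^ 2 < 1) : w < 1 := by nlinarith

theorem shL12_pos (s w : ℝ) (hw' : 2 * w ^ 2 < 1) : 0 < shL12 s w := by
  unfold shL12
  exact Real.rpow_pos_of_pos (shP_pos w hw') _

theorem shL23_pos (s w : ℝ) (hw : 0 < w) : 0 < shL23 s w := by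
  unfold shL23
  exact Real.rpow_pos_of_pos hw _

/-- `shL23 / 2` as a power with the same exponent as `shL12` -/
theorem shL23_half (s : ℝ) (hs : 0 < s) (w : ℝ) (hw : 0 < w) :
    shL23 s w / 2 = ((2:ℝ) ^ (s + 2) * w ^ 2) ^ (-(1 / (s + 2))) := by
  have hs2 : (s + 2) ≠ 0 := by positivity
  have h2 := two_rpow_pos s
  rw [Real.mul_rpow h2.le (by positivity), ← Real.rpow_mul (by norm_num : (0:ℝ) ≤ 2),
    ← Real.rpow_natCast w 2, ← Real.rpow_mul hw.le]
  have e1 : (s + 2) * -(1 / (s + 2)) = -1 := by field_simp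
  have e2 : ((2:ℕ):ℝ) * -(1 / (s + 2)) = -(2 / (s + 2)) := by push_cast; ring
  rw [e1, e2, Real.rpow_neg_one]
  unfold shL23
  ring

theorem shH_eq (s : ℝ) (hs : 0 < s) (w : ℝ) (hw : 0 < w) :
    shH s w = ((shP w) ^ (-(1 / (s + 2)))) ^ 2
      - (((2:ℝ) ^ (s + 2) * w ^ 2) ^ (-(1 / (s + 2)))) ^ 2 := by
  rw [← shL23_half s hs w hw]
  unfold shH shL12
  ring

theorem shH_wMin (s : ℝ) (hs : 0 < s) : shH s (wMin s) = 0 := by
  have h2 := two_rpow_pos s
  rw [shH_eq s hs _ (wMin_pos s hs)]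
  have e : shP (wMin s) = (2:ℝ) ^ (s + 2) * wMin s ^ 2 := by
    unfold shP
    rw [wMin_sq]
    field_simp
    ring
  rw [e]
  ring

theorem shH_pos (s : ℝ) (hs : 0 < s) (w : ℝ) (hw : wMin s < w) (hw' : 2 * w ^ 2 < 1) :
    0 < shH s w := by
  have h2 := two_rpow_pos s
  have hm := wMin_pos s hs
  have hw0 : 0 < w := hm.trans hw
  rw [shH_eq s hs _ hw0]
  have hp := shP_pos w hw'
  have hlt : shP w < (2:ℝ) ^ (s + 2) * w ^ 2 := by
    have h1 : wMin s ^ 2 < w ^ 2 := by nlinarith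
    rw [wMin_sq, div_lt_iff₀ (by positivity)] at h1
    unfold shP
    nlinarith
  have ha : -(1 / (s + 2)) < 0 := by
    have : 0 < 1 / (s + 2) := by positivity
    linarith
  have h3 : ((2:ℝ) ^ (s + 2) * w ^ 2) ^ (-(1 / (s + 2))) < (shP w) ^ (-(1 / (s + 2))) :=
    Real.rpow_lt_rpow_of_neg hp hlt ha
  have h4 : 0 < ((2:ℝ) ^ (s + 2) * w ^ 2) ^ (-(1 / (s + 2))) :=
    Real.rpow_pos_of_pos (by positivity) _
  nlinarith

theorem shL12_ge_one (s : ℝ) (hs : 0 < s) (w : ℝ) (hw : 0 < w) (hw' : 2 * w ^ 2 < 1) :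
    1 ≤ shL12 s w := by
  unfold shL12
  refine Real.one_le_rpow_of_pos_of_le_one_of_nonpos (shP_pos w hw') (shP_le_one w) ?_
  have : 0 < 1 / (s + 2) := by positivity
  linarith

theorem shL23_ge_one (s : ℝ) (hs : 0 < s) (w : ℝ) (hw : 0 < w) (hw' : 2 * w ^ 2 < 1) :
    1 ≤ shL23 s w := by
  unfold shL23
  refine Real.one_le_rpow_of_pos_of_le_one_of_nonpos hw (lt_one_of w hw hw').le ?_
  have : 0 < 2 / (s + 2) := by positivity
  linarith

theorem shG_nonneg (s : ℝ) (hs : 0 < s) (w : ℝ) (hw : 0 < w) (hw' : 2 * w ^ 2 < 1) :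
    0 ≤ shG s w := by
  unfold shG
  have h1 := Real.rpow_nonneg (shP_pos w hw').le (s / (s + 2))
  have h2 := Real.rpow_nonneg hw.le (2 * s / (s + 2))
  linarith

theorem shG_le_three (s : ℝ) (hs : 0 < s) (w : ℝ) (hw : 0 < w) (hw' : 2 * w ^ 2 < 1) :
    shG s w ≤ 3 := by
  unfold shG
  have h1 : (shP w) ^ (s / (s + 2)) ≤ 1 :=
    Real.rpow_le_one (shP_pos w hw').le (shP_le_one w) (by positivity)
  have h2 : w ^ (2 * s / (s + 2)) ≤ 1 :=
    Real.rpow_le_one hw.le (lt_one_of w hw hw').le (by positivity)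
  linarith

/-! ### smoothness -/

theorem contDiff_shP : ContDiff ℝ ∞ shP := by
  unfold shP
  fun_prop

theorem shape_contDiffAt (s : ℝ) (hs : 0 < s) (w : ℝ) (hw : 0 < w) (hw' : 2 * w ^ 2 < 1) :
    ContDiffAt ℝ ∞ (shL23 s) w ∧ ContDiffAt ℝ ∞ (shH s) w ∧ ContDiffAt ℝ ∞ (shb s) w := by
  have hp := shP_pos w hw'
  have h23 : ContDiffAt ℝ ∞ (shL23 s) w := by
    unfold shL23
    exact Real.contDiffAt_rpow_const_of_ne hw.ne'
  have h12 : ContDiffAt ℝ ∞ (shL12 s) w := by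
    unfold shL12
    exact contDiff_shP.contDiffAt.rpow_const_of_ne hp.ne'
  have hH : ContDiffAt ℝ ∞ (shH s) w := by
    unfold shH
    exact (h12.pow 2).sub ((h23.pow 2).div_const 4)
  refine ⟨h23, hH, ?_⟩
  unfold shb
  exact ((h23.pow 2).div_const 4).add ((contDiff_shP.contDiffAt.pow 2).mul hH)

/-! ### monotonicity of the apex equation -/

theorem shF_strictAnti (s : ℝ) (hs : 0 < s) (ζ e : ℝ) (hζ : 0 ≤ ζ) (he : 0 ≤ e) (w w' : ℝ)
    (hw : 0 < w) (hww' : w < w') (hw' : 2 * w' ^ 2 < 1) : shF s w' ζ e < shF s w ζ e := by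
  have hw0' : 0 < w' := hw.trans hww'
  have hsq : w ^ 2 < w' ^ 2 := by nlinarith
  have hwlt : 2 * w ^ 2 < 1 := by linarith
  have hp' := shP_pos w' hw'
  have hp := shP_pos w hwlt
  have ha : -(1 / (s + 2)) < 0 := by
    have : 0 < 1 / (s + 2) := by positivity
    linarith
  have ha2 : -(2 / (s + 2)) < 0 := by
    have : 0 < 2 / (s + 2) := by positivity
    linarith
  -- the two sides
  have h12 : shL12 s w < shL12 s w' := by
    unfold shL12
    refine Real.rpow_lt_rpow_of_neg hp' ?_ ha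
    unfold shP
    linarith
  have h23 : shL23 s w' < shL23 s w := by
    unfold shL23
    exact Real.rpow_lt_rpow_of_neg hw hww' ha2
  have hH : shH s w < shH s w' := by
    unfold shH
    have a1 := shL12_pos s w hwlt
    have a2 := shL23_pos s w' hw0'
    nlinarith
  have h1 : ζ / (4 * w' ^ 4) ≤ ζ / (4 * w ^ 4) := by
    apply div_le_div_of_nonneg_left hζ (by positivity)
    have : w ^ 4 ≤ w' ^ 4 := pow_le_pow_left₀ hw.le hww'.le 4
    linarith
  have h2 : 4 * e / (2 * w' ^ 2 + 1) ^ 2 ≤ 4 * e / (2 * w ^ 2 + 1) ^ 2 := by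
    apply div_le_div_of_nonneg_left (by positivity) (by positivity)
    exact pow_le_pow_left₀ (by positivity) (by linarith) 2
  unfold shF
  linarith

theorem hasDerivAt_shH (s : ℝ) (hs : 0 < s) (w : ℝ) (hw : 0 < w) (hw' : 2 * w ^ 2 < 1) :
    HasDerivAt (shH s)
      (8 * (1 / (s + 2)) * w * shL12 s w ^ 2 / shP w
        + (1 / (s + 2)) * shL23 s w ^ 2 / w) w := by
  have hp : 0 < shP w := shP_pos w hw'
  have hs2 : (s + 2) ≠ 0 := by positivity
  have hP : HasDerivAt shP (-4 * w) w := by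
    have h := ((hasDerivAt_pow 2 w).const_mul 2).const_sub 1
    have e : (-(2 * ((2:ℕ) * w ^ (2 - 1))) : ℝ) = -4 * w := by norm_num; ring
    rw [e] at h
    exact h
  have hL12 : HasDerivAt (shL12 s) (-4 * w * (-(1 / (s + 2))) * shP w ^ (-(1 / (s + 2)) - 1)) w :=
    hP.rpow_const (Or.inl hp.ne')
  have hL23 : HasDerivAt (shL23 s) (-(2 / (s + 2)) * w ^ (-(2 / (s + 2)) - 1)) w :=
    Real.hasDerivAt_rpow_const (Or.inl hw.ne')
  have hH : HasDerivAt (shH s)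
      ((2:ℕ) * shL12 s w ^ (2 - 1) * (-4 * w * (-(1 / (s + 2))) * shP w ^ (-(1 / (s + 2)) - 1)) -
        ((2:ℕ) * shL23 s w ^ (2 - 1) * (-(2 / (s + 2)) * w ^ (-(2 / (s + 2)) - 1))) / 4) w :=
    (hL12.pow 2).sub ((hL23.pow 2).div_const 4)
  convert hH using 1
  have e1 : shP w ^ (-(1 / (s + 2)) - 1) = shL12 s w / shP w := by
    unfold shL12; rw [Real.rpow_sub_one hp.ne']
  have e2 : w ^ (-(2 / (s + 2)) - 1) = shL23 s w / w := by
    unfold shL23; rw [Real.rpow_sub_one hw.ne']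
  rw [e1, e2]
  field_simp
  ring

theorem shF_deriv_neg (s : ℝ) (hs : 0 < s) (ζ e : ℝ) (hζ : 0 ≤ ζ) (he : 0 ≤ e) (w : ℝ)
    (hw : 0 < w) (hw' : 2 * w ^ 2 < 1) : deriv (fun v => shF s v ζ e) w < 0 := by
  have hp : 0 < shP w := shP_pos w hw'
  have h1 : HasDerivAt (fun v : ℝ => ζ / (4 * v ^ 4)) (-(ζ / w ^ 5)) w := by
    have hd := (hasDerivAt_const w ζ).div ((hasDerivAt_pow 4 w).const_mul 4)
      (by positivity : (4 * w ^ 4 : ℝ) ≠ 0)
    have hd' : HasDerivAt (fun v : ℝ => ζ / (4 * v ^ 4))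
        ((0 * (4 * w ^ 4) - ζ * (4 * (((4:ℕ):ℝ) * w ^ (4 - 1)))) / (4 * w ^ 4) ^ 2) w := hd
    refine hd'.congr_deriv ?_
    push_cast
    field_simp
    ring
  have h2 : HasDerivAt (fun v : ℝ => 4 * e / (2 * v ^ 2 + 1) ^ 2)
      (-(32 * e * w / (2 * w ^ 2 + 1) ^ 3)) w := by
    have hq : HasDerivAt (fun v : ℝ => 2 * v ^ 2 + 1) (2 * ((2:ℕ) * w ^ (2 - 1))) w :=
      ((hasDerivAt_pow 2 w).const_mul 2).add_const 1
    have hd := (hasDerivAt_const w (4 * e)).div (hq.pow 2)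
      (by positivity : ((2 * w ^ 2 + 1) ^ 2 : ℝ) ≠ 0)
    have hd' : HasDerivAt (fun v : ℝ => 4 * e / (2 * v ^ 2 + 1) ^ 2)
        ((0 * (2 * w ^ 2 + 1) ^ 2 - 4 * e * (((2:ℕ):ℝ) * (2 * w ^ 2 + 1) ^ (2 - 1) *
          (2 * (((2:ℕ):ℝ) * w ^ (2 - 1))))) / ((2 * w ^ 2 + 1) ^ 2) ^ 2) w := hd
    refine hd'.congr_deriv ?_
    push_cast
    field_simp
    ring
  have h3 := hasDerivAt_shH s hs w hw hw'
  have hd : HasDerivAt (fun v => shF s v ζ e)
      (-(ζ / w ^ 5) + -(32 * e * w / (2 * w ^ 2 + 1) ^ 3)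
        - (8 * (1 / (s + 2)) * w * shL12 s w ^ 2 / shP w
          + (1 / (s + 2)) * shL23 s w ^ 2 / w)) w := by
    have := (h1.add h2).sub h3
    exact this
  rw [hd.deriv]
  have a1 := shL12_pos s w hw'
  have a2 := shL23_pos s w hw
  have t1 : 0 ≤ ζ / w ^ 5 := by positivity
  have t2 : 0 ≤ 32 * e * w / (2 * w ^ 2 + 1) ^ 3 := by positivity
  have t3 : 0 < 8 * (1 / (s + 2)) * w * shL12 s w ^ 2 / shP w := by positivity
  have t4 : 0 < (1 / (s + 2)) * shL23 s w ^ 2 / w := by positivity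
  linarith

end Crest.Agent.Helper35
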